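import Vale.Agent.P050.R2.H545.HubE8
import Vale.Agent.P050.R2.H545.WG

namespace Vale.Agent.Results.P050.BicliqueCores

open Vale.Agent.P050 Vale.Agent.P050.Lev Vale.Agent.P050.Books Vale.Agent.P050.R2.H545

/-- (I) Let `H'` be bipartite, no vertex isolated, and `P i` finitely many plans of `H'`. If for
all `m ≥ 2` the mean of the gains is at least `- k`, then `t(H,G) ≥ p(G) ^ (e + k)` for all finite
graphs `G` and all spanning subgraphs `H` of `H'`, with `e` the number of edges of `H'`. If all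
plans are for the same side and the mean of the gains is not negative for all `m ≥ 2`, then `H'`
satisfies the two-sided weighted Sidorenko inequality.
(II) Let `H` be bipartite with `e` edges, `b₀` a vertex
of one part which is not isolated, and `w` the number of vertices of the other part which are not
adjacent to `b₀`. Three improvements of the exponent `e + w`: (i) for bounded degrees outside
`b₀`; (ii) for a set `F` of far apart non-neighbours of `b₀`, with the full Sidorenko inequality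
if these are all the non-neighbours; (iii) for maximum degree three without the cube. -/
theorem result :
    (∀ (V : Type) [Fintype V] [DecidableEq V] (H' : SimpleGraph V) (side : V → Bool),
      (∀ u v, H'.Adj u v → side u ≠ side v) → (∀ v, ∃ u, H'.Adj v u) →
      ∀ (ι : Type) [Fintype ι] [Nonempty ι],
      (∀ (s : ι → Bool) (P : ∀ i, Plan H' side (s i)) (k : ℝ), 0 ≤ k →
        (∀ m, 2 ≤ m → -(k * Fintype.card ι) ≤ ∑ i, (P i).gain m) →
        ∀ H : SimpleGraph V, H ≤ H' → ∀ (U : Type) [Finite U] [Nonempty U] (G : SimpleGraph U),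
          edgeDensity G ^ ((Nat.card H'.edgeSet : ℝ) + k) ≤ homDensity H G) ∧
      ∀ (σ : Bool) (P : ι → Plan H' side σ), (∀ m, 2 ≤ m → 0 ≤ ∑ i, (P i).gain m) →
        GSid H' side) ∧
    (∀ (V : Type) [Fintype V] [DecidableEq V] (H : SimpleGraph V) (s : V → Bool),
      (∀ u v, H.Adj u v → s u ≠ s v) → ∀ (σ : Bool) (b₀ : V), s b₀ ≠ σ → (∃ v, H.Adj b₀ v) →
      ∀ e w : ℕ, Nat.card H.edgeSet = e → Nat.card {a : V // s a = σ ∧ ¬ H.Adj b₀ a} = w →
      (∀ D : ℕ, 2 ≤ D → (∀ v, v ≠ b₀ → Nat.card {u : V // u ≠ b₀ ∧ H.Adj v u} ≤ D) →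
        ∀ S : Finset V, (∀ a ∈ S, s a = σ ∧ ¬ H.Adj b₀ a ∧ Arms H a) →
          ∀ (U : Type) [Finite U] [Nonempty U] (G : SimpleGraph U),
            edgeDensity G ^ (2 * D ^ 5 * (e + w) - S.card) ≤ homDensity H G ^ (2 * D ^ 5)) ∧
      (∀ (D : ℕ) (F R : Finset V), 2 ≤ D → (∀ a ∈ F, s a = σ ∧ ¬ H.Adj b₀ a ∧ Arms H a) →
        (∀ a ∈ F, Nat.card {u : V // H.Adj a u} ≤ D) →
        (∀ a ∈ F, ∀ b, H.Adj a b → Nat.card {v : V // H.Adj b v} ≤ D) →
        (∀ a ∈ F, ∀ b v, H.Adj a b → H.Adj b v → Nat.card {u : V // u ≠ b₀ ∧ H.Adj v u} ≤ D) →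
        (∀ a ∈ F, ∀ a' ∈ F, a ≠ a' → ∀ b b' v, H.Adj a b → H.Adj a' b' →
          ¬ (H.Adj b v ∧ H.Adj b' v)) →
        (∀ b, b ∈ R ↔ s b ≠ σ ∧ b ≠ b₀) →
        D ^ 4 * F.card ≤ ∑ b ∈ R, (Nat.card {v : V // H.Adj b v} + 1 - D) →
        (∀ (U : Type) [Finite U] [Nonempty U] (G : SimpleGraph U),
          edgeDensity G ^ (e + w - F.card) ≤ homDensity H G) ∧
        (w = F.card → GSid H s ∧ ∀ (U : Type) [Finite U] [Nonempty U] (G : SimpleGraph U),
          edgeDensity G ^ e ≤ homDensity H G)) ∧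
      ((∀ v, Nat.card {u : V // H.Adj v u} ≤ 3) →
        (¬ ∃ a c : Fin 4 → V, Function.Injective a ∧ Function.Injective c ∧
          ∀ i j, i ≠ j → H.Adj (a i) (c j)) →
        ∀ (U : Type) [Finite U] [Nonempty U] (G : SimpleGraph U),
          edgeDensity G ^ (972 * (e + w) - (w - 3)) ≤ homDensity H G ^ 972) ∧
      (∀ a : V, (Nat.card {b : V // H.Adj a b} ≤ 2 ∨ ∀ a' b b', a ≠ a' → b ≠ b' → H.Adj a b →
        H.Adj a b' → H.Adj a' b → ¬ H.Adj a' b') → Arms H a)) := by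
  refine ⟨?_, ?_⟩
  · intro V _ _ H' side hs hi ι _ _
    exact ⟨fun s P k hk h H hH U _ _ G => near_of_plans hs hi P hk h H hH U G,
      fun σ P h => gsid_of_plans hs hi P h⟩
  · intro V _ _ H s hs σ b₀ hb₀ hne e w he hw
    have h0 := fun (R : Finset V) (hR : ∀ b, b ∈ R ↔ s b ≠ σ ∧ b ≠ b₀) =>
      wg H s hs σ b₀ hb₀ hne e w he hw R hR
    have h1 := h0 (Finset.univ.filter fun b => s b ≠ σ ∧ b ≠ b₀) (by simp)
    refine ⟨fun D hD hd S hS U _ _ G => (h1.2.1 D hD hd S hS).2 U G, ?_,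
      fun h3 hQ U _ _ G => (h1.2.2.2 h3 hQ).2 U G, h1.2.2.1⟩
    intro D F R hD hF hdF hdb hdv hap hRR hle
    have h2 := ((h0 R hRR).1 F D (fun a ha => ⟨(hF a ha).1, (hF a ha).2.1⟩)
      (fun a ha => (hF a ha).2.2) hdb hap).2 hD hdF hdv hle
    exact ⟨h2.1.2, fun hwF => h2.2 hwF.le⟩

end Vale.Agent.Results.P050.BicliqueCores
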