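import Vale.Agent.P050.R3.H257.Final

namespace Vale.Agent.Results.P050.CycleEars

open Vale.Agent.P050 Vale.Agent.P050.Lev Vale.Agent.P050.Ears

/-- Let `n = k + 1 ≥ 4` be even. Every graph of the class `EarGraph k` satisfies the two-sided
Sidorenko inequality, hence the Sidorenko inequality for all finite graphs. The class contains the
cycle with `n` vertices and all graphs obtained by adding ears, possibly crossing, between
positions of recorded walks on this cycle, whose lengths lie between the two cyclic distances of
their ends and have the same parity. The vertices of an ear are recorded too (`arc`, `fold`), so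
that further ears can be attached to them. Pendant edges and even cycles may be attached at any
vertex. -/
theorem result : ∀ k : ℕ, (k + 1) % 2 = 0 → 3 ≤ k →
    ∀ (V : Type) [Fintype V] [DecidableEq V] (H : SimpleGraph V) (𝒞 : Set (Rec k V)),
      EarGraph k V H 𝒞 → ∃ side : V → Bool, GSid H side ∧
        ∀ (U : Type) [Finite U] [Nonempty U] (G : SimpleGraph U),
          edgeDensity G ^ Nat.card H.edgeSet ≤ homDensity H G := by
  intro k hk hk3 V _ _ H 𝒞 h
  obtain ⟨side, hs⟩ := h.gsid hk hk3
  exact ⟨side, hs, fun _ _ _ G => sidorenko_of_gsid hs G⟩

end Vale.Agent.Results.P050.CycleEars
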