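import Vale.Agent.P050.O.H904.Strict3
import Vale.Agent.P050.R2.H466.Final
import Vale.Agent.P050.O.H300.AsmFinal
import Vale.Agent.P050.O.H300.LongLog

namespace Vale.Agent.Results.P050.DenseTargets

open MeasureTheory Vale.Agent.P050 Vale.Agent.P050.H753 Vale.Agent.P050.Dense
  Vale.Agent.P050.R2.H466 Vale.Agent.P050.Opt

/-- Sidorenko's inequality. For all bipartite graphs `H` of bounded degree: (1) for all kernels
which are bounded from above by a constant close to their mean; (2) for every graph of edge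
density close to one, with strict inequality if `H` has a cycle; (3) for every nearly complete
bipartite graph. (4) For all graphs `H` assembled from Sidorenko graphs and bipartite graphs of
bounded degree: for all kernels `W` of mean `p` and degree function `d` such that
`p * W x y` is at most a constant close to one times `d x * d y`. (5) For all bipartite
subdivisions of graphs of degree at most `D`, where the edges are replaced by paths of length at
least `C * log (D + 2)`: for all target graphs on at most `n` vertices, and for all target graphs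
where any two vertices joined by an even walk are joined by many walks of length `2 * j`; the
constant `C` depends on `n`, `j`, `ε` only. For every
bipartite graph `H`: (6) for log-supermodular targets; (7) for every target graph on average over
the `K`-lifts of `H`, up to a factor polynomial in `K`. -/
theorem result :
    (∀ (V Ω : Type) [Fintype V] [DecidableEq V] [MeasurableSpace Ω]
      (H : SimpleGraph V) [DecidableRel H.Adj] (μ : Measure Ω) [IsProbabilityMeasure μ]
      (W : Ω → Ω → ℝ) (hW : ∀ s t, W s t = W t s) (p : ℝ) (D : ℕ),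
      H.IsBipartite → (∀ v, H.degree v ≤ D) → Measurable (Function.uncurry W) → 0 < p →
      ∫ s, ∫ t, W s t ∂μ ∂μ = p →
      (∀ᵐ z ∂(μ.prod μ), 0 ≤ W z.1 z.2 ∧ W z.1 z.2 ≤ (1 + 1 / (10 ^ 15 * D)) * p) →
      p ^ H.edgeFinset.card ≤ kernelDensity μ H W hW) ∧
    (∀ (V X : Type) [Finite V] [Finite X] [Nonempty X] (H : SimpleGraph V) (G : SimpleGraph X)
      (D : ℕ), H.IsBipartite → (∀ v, (H.neighborSet v).ncard ≤ D) →
      1 - 1 / (10 ^ 15 * D) ≤ edgeDensity G →
      edgeDensity G ^ Nat.card H.edgeSet ≤ homDensity H G ∧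
        (¬ H.IsAcyclic → edgeDensity G ^ Nat.card H.edgeSet < homDensity H G)) ∧
    (∀ (V X : Type) [Finite V] [Finite X] [Nonempty X] (H : SimpleGraph V) (G : SimpleGraph X)
      (D : ℕ) (S : Set X), H.IsBipartite → (∀ v, (H.neighborSet v).ncard ≤ D) →
      (∀ a b, G.Adj a b → (a ∈ S ↔ b ∉ S)) →
      (1 - 1 / (2 * 10 ^ 15 * (D : ℝ))) * (S.ncard * Sᶜ.ncard) ≤ Nat.card G.edgeSet →
      edgeDensity G ^ Nat.card H.edgeSet ≤ homDensity H G) ∧
    (∀ (V Ω : Type) [Fintype V] [DecidableEq V] [MeasurableSpace Ω]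
      (H : SimpleGraph V) [DecidableRel H.Adj] (μ : Measure Ω) [IsProbabilityMeasure μ]
      (W : Ω → Ω → ℝ) (hW : ∀ s t, W s t = W t s) (p C : ℝ) (D : ℕ),
      Assembled D V H → Measurable (Function.uncurry W) → (∀ s t, 0 ≤ W s t ∧ W s t ≤ C) →
      ∫ s, ∫ t, W s t ∂μ ∂μ = p → (∀ᵐ z ∂(μ.prod μ),
        p * W z.1 z.2 ≤ (1 + 1 / (10 ^ 13 * D)) * ((∫ t, W z.1 t ∂μ) * ∫ t, W z.2 t ∂μ)) →
      p ^ H.edgeFinset.card ≤ kernelDensity μ H W hW) ∧
    (∀ (n j : ℕ) (ε : ℝ), 1 ≤ j → 0 < ε → ∃ C : ℝ, ∀ (D ℓ : ℕ), C * Real.log (D + 2) ≤ ℓ →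
      ∀ (X : Type) [Finite X] [Nonempty X] (G : SimpleGraph X),
      (Nat.card X ≤ n ∨ ∀ x y, (∃ q : G.Walk x y, Even q.length ∧ q.length ≠ 0) →
        ε * (Nat.card X : ℝ) ^ (2 * j - 1) ≤ Nat.card {q : G.Walk x y // q.length = 2 * j}) →
      ∀ (V : Type) [Finite V] (F : SimpleGraph V),
      (∀ v, (F.neighborSet v).ncard ≤ D) → (subdiv ℓ F).IsBipartite →
      edgeDensity G ^ Nat.card (subdiv ℓ F).edgeSet ≤ homDensity (subdiv ℓ F) G) ∧
    LatticeTargets ∧ RandomLifts := by
  refine ⟨?_, ?_, ?_, ?_, ?_, latticeTargets, randomLifts⟩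
  · intro V Ω _ _ _ H _ μ _ W hW p D hH hD hm hp hint hbd
    exact dense_measurable3 H hH μ W hW hm hp hD hint hbd
  · intro V X _ _ _ H G D hH hD hp
    exact ⟨dense_graph3 H G hH D hD hp, fun hc => dense_graph3_strict H G hH hc D hD hp⟩
  · intro V X _ _ _ H G D S hH hD hS he
    exact dense_bip3 H G hH D hD S hS he
  · intro V Ω _ _ _ H _ μ _ W hW p C D hA hm hb hint hcl
    exact H300.cl_measurable H μ W hW p C D hA hm hb hint hcl
  · exact fun n j ε hj hε => H300.long_log n hj hε

end Vale.Agent.Results.P050.DenseTargets
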