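import Vale.Agent.P050.R4.H153.MfApt

namespace Vale.Agent.Results.P050.SeriesParallel

open Vale.Agent.P050 Vale.Agent.P050.Lev Vale.Agent.P050.SP

/-- Let `G` be made from a frame. A frame is a list of edges with lengths and a list of parts on a
set of vertices, built from one vertex together with a set of recorded trees and a set of recorded
earlier frames by adding edges, subdividing edges, copying parts of recorded trees, putting parts
between vertices of recorded trees, copying earlier frames, mirroring recorded trees and earlier
frames (with centred parts between the vertices and their copies) and gluing two frames along a tree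
recorded in both. Then every finite graph `H` isomorphic to `G` satisfies the two-sided Sidorenko
inequality, hence the Sidorenko inequality for all finite graphs. -/
theorem result (V W : Type) [Fintype V] [DecidableEq V] (H : SimpleGraph V) (G : SimpleGraph W)
    (hG : MFrG (fun e d => Apt e (.dist d)) (fun e => Apt e .cen) G 0)
    (hH : Nonempty (H ≃g G)) :
    (∃ side : V → Bool, GSid H side) ∧
      ∀ (U : Type) [Finite U] [Nonempty U] (T : SimpleGraph U),
        edgeDensity T ^ Nat.card H.edgeSet ≤ homDensity H T :=
  let ⟨φ⟩ := hH
  ⟨hG.gsid sound_apt soundK_apt φ, fun _ _ _ T => hG.sid sound_apt soundK_apt φ T⟩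

end Vale.Agent.Results.P050.SeriesParallel
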